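import Vale.Agent.P269AV.IF
import Vale.Agent.P269AE.Eul

/-!
# P269AM : the integrals of degree zero (row M)
-/

noncomputable section

namespace Vale.Agent.P269AM

open P269A (Coh ModOK)
open P269AV P269AE

theorem low_eq (ms : List ℕ) : ∀ f : List ℕ → ℂ, ((P269A.low ms).map f).sum = low f ms := by
  induction ms with
  | nil => intro f; rfl
  | cons m l ih =>
    intro f
    rcases m with _ | m
    · simp only [P269A.low, low, List.map_map, if_true, zero_add, ← ih]; rfl
    · simp only [P269A.low, low, List.map_cons, List.sum_cons, List.map_map, ← ih]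
      simp [Function.comp_def]

theorem low_congr (ms : List ℕ) : ∀ f f' : List ℕ → ℂ,
    (∀ u, u.length = ms.length → f u = f' u) → low f ms = low f' ms := by
  induction ms with
  | nil => intro f f' _; rfl
  | cons m l ih =>
    intro f f' h
    simp only [low]
    rw [h ((m - 1) :: l) rfl, ih (fun u => f (m :: u)) (fun u => f' (m :: u))
      fun u hu => h _ (by simp [hu])]

theorem low_mul (c : ℂ) (ms : List ℕ) : ∀ f : List ℕ → ℂ,
    low (fun u => c * f u) ms = c * low f ms := by
  induction ms with
  | nil => intro f; simp [low]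
  | cons m l ih =>
    intro f
    simp only [low]
    rw [ih fun u => f (m :: u)]
    split_ifs <;> ring

theorem low_ne {ms : List ℕ} {f : List ℕ → ℂ} (h : low f ms ≠ 0) :
    ∃ u, u.length = ms.length ∧ f u ≠ 0 := by
  by_contra c
  push Not at c
  apply h
  rw [low_congr ms f (fun u => 0 * f u) fun u hu => by rw [c u hu, mul_zero], low_mul, zero_mul]

theorem zero_mem {l : List ℕ} (h : l.sum < l.length) : 0 ∈ l := by
  induction l with
  | nil => simp at h
  | cons m l ih =>
    rcases m with _ | m
    · simp
    · exact List.mem_cons_of_mem _ (ih (by simp at h; omega))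

variable {I : ℕ → List ℕ → MvPolynomial ℕ ℂ → ℂ} (hI : ModOK I)
include hI

theorem I_zero {g : ℕ} {l : List ℕ} (s : 2 < 2 * g + l.length) : I g l 0 = 0 := by
  simpa using hI.smul g l 0 0 s

theorem I_str {g : ℕ} {l : List ℕ} (s : 2 < 2 * g + l.length) (P : MvPolynomial ℕ ℂ) :
    I g (0 :: l) P = low (fun u => I g u P) l := by rw [hI.string g l P s, low_eq]

theorem key {g w : ℕ} {P : MvPolynomial ℕ ℂ} (hg : 1 ≤ g)
    (hP : P.IsWeightedHomogeneous (fun i : ℕ => i) w) (n : ℕ) : ∀ l : List ℕ, l.length = n →
    2 < 2 * g + l.length → I g l P ≠ 0 → w + 3 ≤ 3 * g ∨ (g = 1 ∧ w ≤ 1) := by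
  induction n with
  | zero =>
    intro l hl s h
    have := hI.degree g l P w s hP h
    omega
  | succ n ih =>
    intro l hl s h
    have hd := hI.degree g l P w s hP h
    by_contra c
    have p := List.perm_cons_erase (zero_mem (l := l) (by omega))
    have hl' := p.length_eq
    rw [List.length_cons] at hl'
    by_cases s' : 2 < 2 * g + (l.erase 0).length
    · rw [hI.perm g _ _ P s p, I_str hI s'] at h
      obtain ⟨u, hu, h⟩ := low_ne h
      exact c (ih u (by omega) (by omega) h)
    · omega

theorem dil_lam (n : ℕ) : ∀ l : List ℕ, l.length = n → l ≠ [] →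
    I 1 (1 :: l) (MvPolynomial.X 1) = l.length * I 1 l (MvPolynomial.X 1) := by
  have hP : (MvPolynomial.X 1 : MvPolynomial ℕ ℂ).IsWeightedHomogeneous (fun i : ℕ => i) 1 :=
    MvPolynomial.isWeightedHomogeneous_X _ _ _
  induction n with
  | zero => intro l hl h; exact (h (List.length_eq_zero_iff.1 hl)).elim
  | succ n ih =>
    intro l hl _
    by_cases hs : l.sum + 1 = l.length
    · have p := List.perm_cons_erase (zero_mem (l := l) (by omega))
      have hl' := p.length_eq
      generalize l.erase 0 = t at p hl'
      rw [List.length_cons] at hl'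
      rw [hI.perm 1 _ _ _ (by simp) ((p.cons 1).trans (List.Perm.swap 0 1 t)),
        I_str hI (by simp), hI.perm 1 _ _ _ (by omega) p, hl']
      simp only [low, one_ne_zero, if_false, Nat.sub_self]
      rcases t with _ | ⟨a, t⟩
      · simp [low]
      · rw [low_congr _ _ (fun u => ((a :: t).length : ℂ) * I 1 u (MvPolynomial.X 1))
          fun u hu => by
            rw [ih u (by omega) (by rintro rfl; simp at hu), hu], low_mul, ← I_str hI (by simp)]
        push_cast
        ring
    · have h1 : I 1 (1 :: l) (MvPolynomial.X 1) = 0 := by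
        by_contra c
        have := hI.degree 1 _ _ 1 (by simp) hP c
        simp at this
        omega
      have h2 : I 1 l (MvPolynomial.X 1) = 0 := by
        by_contra c
        have := hI.degree 1 _ _ 1 (by omega) hP c
        omega
      rw [h1, h2, mul_zero]

omit hI in
theorem rowM : RowM := by
  intro ι _ _ X I hI hr
  have ne : ∀ {g j l}, II X I g j l ≠ 0 → 2 < 2 * g + l.length ∧ I g l ((X.eul g).coeff j) ≠ 0 ∧
      j ≤ X.r * g := by
    intro g j l h
    unfold II at h
    split_ifs at h with s
    · exact ⟨s, h, eul_le X fun c => h (by rw [c, I_zero hI s])⟩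
    · exact (h rfl).elim
  have er : (X.eul 1).coeff X.r = X.γ X.r • 1 := by
    rw [eul_one_coeff X le_rfl, Nat.sub_self, pow_zero, MvPolynomial.smul_eq_C_mul]
  have er' : (X.eul 1).coeff (X.r - 1) = (-X.γ (X.r - 1)) • MvPolynomial.X 1 := by
    rw [eul_one_coeff X (Nat.sub_le _ _), show X.r - (X.r - 1) = 1 by omega, pow_one,
      MvPolynomial.smul_eq_C_mul, map_neg]
    ring
  have d1 : ∀ j l, II X I 1 j l ≠ 0 → X.r ≤ j + 1 := fun j l h => by
    obtain ⟨s, h, -⟩ := ne h
    have := key hI le_rfl (eul_hom X 1 j) _ l rfl s h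
    omega
  refine ⟨fun g j l l' p => ?_, fun g j l h => (ne h).1, fun g j l h => ?_, fun j l h => ?_, d1,
    fun g j l hg h => ?_, fun g j l s => ?_, fun j l hl => ?_, ?_, ?_, ?_⟩
  · unfold II
    rw [← p.length_eq]
    split_ifs with s
    · exact hI.perm g _ _ _ s p
    · rfl
  · obtain ⟨s, h, hj⟩ := ne h
    have := hI.degree g l _ _ s (eul_hom X g j) h
    omega
  · have := (ne h).2.2
    omega
  · obtain ⟨s, h, hj⟩ := ne h
    have := key hI (by omega) (eul_hom X g j) _ l rfl s h
    omega
  · rw [low_congr l (II X I g j) (fun u => I g u ((X.eul g).coeff j)) fun u hu =>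
      if_pos (by omega), ← I_str hI s]
    exact if_pos (by simp; omega)
  · have s : 0 < l.length := List.length_pos_iff.2 hl
    by_cases a : X.r ≤ j + 1 ∧ j ≤ X.r
    · unfold II
      rw [if_pos (by simp), if_pos (by omega)]
      rcases (by omega : j = X.r ∨ j = X.r - 1) with rfl | rfl
      · rw [er, hI.smul _ _ _ _ (by simp), hI.smul _ _ _ _ (by omega), hI.dilaton l s]
        ring
      · rw [er', hI.smul _ _ _ _ (by simp), hI.smul _ _ _ _ (by omega), dil_lam hI _ l rfl hl]
        ring
    · have z : ∀ u, II X I 1 j u = 0 := fun u => by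
        by_contra c
        have := (ne c).2.2
        exact a ⟨d1 j u c, by omega⟩
      rw [z, z, mul_zero]
  · unfold II
    rw [if_pos (by simp), eul_zero_coeff, if_pos rfl, hI.v03]
  · unfold II
    rw [if_pos (by simp), er, hI.smul _ _ _ _ (by simp), hI.v11]
    ring
  · unfold II
    rw [if_pos (by simp), er', hI.smul _ _ _ _ (by simp), hI.l11]
    ring

end Vale.Agent.P269AM
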